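import Vale.Agent.Lib.P154.Neg.LP.Base

/-!
The data of a certificate for a restricted range of `theta`, with all its checks.
-/

namespace Vale.Agent.Lib.P154.Neg.B4280

open Vale.Agent.Lib.P154.Neg.Kron Vale.Agent.Lib.P154.Neg Vale.Agent.Lib.P154.Neg.Cst

def tX_1 : CT := (.leaf [130, 6371, 312180] [48, 48, 48])
def tX_2 : CT := (.s12 (.s01 (.leaf [169, 8282, 405819] [48, 48, 48]) (.s12 (.leaf [171, 8380, 410621] [48, 48, 48]) (.leaf [180, 8821, 432230] [48, 48, 48]))) (.s02 (.leaf [169, 8282, 405819] [48, 48, 48]) (.leaf [160, 7841, 384210] [48, 48, 48])))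
def tX_0 : CT := .s02 tX_1 tX_2
def tY1_3 : CT := (.leaf [604, 29597, 1450254] [48, 48, 48])
def tY1_4 : CT := (.leaf [626, 30675, 1503076] [48, 48, 48])
def tY1_2 : CT := .s02 tY1_3 tY1_4
def tY1_5 : CT := (.leaf [608, 29793, 1459858] [48, 48, 48])
def tY1_1 : CT := .s02 tY1_2 tY1_5
def tY1_6 : CT := (.leaf [584, 28617, 1402234] [48, 48, 48])
def tY1_0 : CT := .s02 tY1_1 tY1_6
def tY2_0 : CT := (.leaf [428, 15837, 585970] [36, 36, 36])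
def tQ1_1 : BT := (.split 1 (2) (.split 3 (6) (.leaf [386, 8493, 93424, 1494785] [21, 10, 15, 6]) (.leaf [387, 8515, 93666, 1498657] [21, 10, 15, 6])) (.split 3 (6) (.split 3 (3) (.leaf [387, 8515, 93666, 1498657] [21, 10, 15, 6]) (.leaf [387, 8515, 93666, 1498657] [21, 10, 15, 6])) (.leaf [388, 8537, 93908, 1502529] [21, 10, 15, 6])))
def tQ1_2 : BT := (.split 3 (18) (.leaf [388, 8537, 93908, 1502529] [21, 10, 15, 6]) (.leaf [389, 8559, 94150, 1506401] [21, 10, 15, 6]))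
def tQ1_0 : BT := .split 3 (12) tQ1_1 tQ1_2
def tQ3_2 : BT := (.split 0 (362) (.split 3 (44) (.leaf [405, 6481, 71292, 1140673] [15, 10, 15, 6]) (.split 1 (1) (.split 0 (289) (.leaf [406, 6497, 71468, 1143489] [15, 10, 15, 6]) (.leaf [407, 6513, 71644, 1146305] [15, 10, 15, 6])) (.leaf [407, 6513, 71644, 1146305] [15, 10, 15, 6]))) (.leaf [407, 6513, 71644, 1146305] [15, 10, 15, 6]))
def tQ3_3 : BT := (.leaf [408, 6529, 71820, 1149121] [15, 10, 15, 6])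
def tQ3_1 : BT := .split 0 (508) tQ3_2 tQ3_3
def tQ3_7 : BT := (.split 0 (362) (.split 3 (22) (.leaf [405, 6481, 71292, 1140673] [15, 10, 15, 6]) (.leaf [406, 6497, 71468, 1143489] [15, 10, 15, 6])) (.leaf [407, 6513, 71644, 1146305] [15, 10, 15, 6]))
def tQ3_8 : BT := (.split 3 (22) (.split 0 (362) (.split 3 (11) (.leaf [406, 6497, 71468, 1143489] [15, 10, 15, 6]) (.leaf [406, 6497, 71468, 1143489] [15, 10, 15, 6])) (.leaf [407, 6513, 71644, 1146305] [15, 10, 15, 6])) (.leaf [407, 6513, 71644, 1146305] [15, 10, 15, 6]))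
def tQ3_6 : BT := .split 1 (3) tQ3_7 tQ3_8
def tQ3_9 : BT := (.leaf [407, 6513, 71644, 1146305] [15, 10, 15, 6])
def tQ3_5 : BT := .split 3 (44) tQ3_6 tQ3_9
def tQ3_10 : BT := (.leaf [410, 6561, 72172, 1154753] [15, 10, 15, 6])
def tQ3_4 : BT := .split 0 (508) tQ3_5 tQ3_10
def tQ3_0 : BT := .split 1 (2) tQ3_1 tQ3_4

/-- the data -/
def C : Cst where
  A := ⟨3, 3, 0, 3, 2, 1⟩
  a := (424, 45)
  b := (148, 5)
  c := (156, 5)
  r1 := (3, 4)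
  r2 := (11, 12)
  rho1 := (0, 1)
  rho2 := (11, 12)
  g := (9, 25000)
  er := (1, 2)
  kap := (0, 1)
  thm := (11, 100)
  t1 := (21, 50)
  t2 := (107, 250)
  m0 := (119, 250)
  kp0 := (3, 2)
  W := (.add (.add (.add (.add (.add (.add (.add (.mul (.rat (-1063) 40000) (.pow (.var 1) 2)) (.mul (.rat (1) 2) (.var 0))) (.mul (.mul (.rat (12053) 500000) (.var 0)) (.var 1))) (.mul (.mul (.rat (-1091) 250000) (.var 0)) (.pow (.var 1) 2))) (.mul (.rat (12019) 500000) (.pow (.var 0) 2))) (.mul (.mul (.rat (-2303) 1000000) (.pow (.var 0) 2)) (.var 1))) (.mul (.rat (-563) 500000) (.pow (.var 0) 3))) (.mul (.rat (327) 125000) (.pow (.var 0) 4)))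
  V1h := (.add (.add (.add (.add (.add (.add (.add (.add (.mul (.rat (-1) 16) (.var 1)) (.mul (.rat (-257871) 10000000) (.pow (.var 1) 2))) (.mul (.rat (1) 8) (.var 0))) (.mul (.mul (.rat (-168813) 10000000) (.var 0)) (.var 1))) (.mul (.mul (.rat (92303) 1000000) (.var 0)) (.pow (.var 1) 2))) (.mul (.rat (175119) 10000000) (.pow (.var 0) 2))) (.mul (.mul (.rat (-35289) 1250000) (.pow (.var 0) 2)) (.var 1))) (.mul (.rat (301) 80000) (.pow (.var 0) 3))) (.mul (.rat (32943) 5000000) (.pow (.var 0) 4)))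
  V2h := (.add (.add (.add (.add (.mul (.rat (1) 216) (.var 1)) (.mul (.rat (-2423) 400000) (.pow (.var 1) 2))) (.mul (.mul (.rat (6853) 5000000) (.var 0)) (.var 1))) (.mul (.rat (-5901) 10000000) (.pow (.var 0) 2))) (.mul (.rat (849) 1250000) (.pow (.var 0) 3)))
  Xi := (.add (.add (.add (.rat (61) 15) (.mul (.rat (-6878599) 1000000) (.var 0))) (.mul (.rat (2317341) 125000) (.pow (.var 0) 2))) (.mul (.rat (-4903253) 50000) (.pow (.var 0) 3)))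
  Ek := (.rat 0 1)
  Sz := (.add (.add (.add (.add (.mul (.rat (1) 3) (.var 0)) (.mul (.rat (1) 9) (.pow (.var 0) 2))) (.mul (.rat (5) 81) (.pow (.var 0) 3))) (.mul (.rat (10) 243) (.pow (.var 0) 4))) (.mul (.rat (22) 729) (.pow (.var 0) 5)))
  a0 := 500
  b0 := 554
  c0 := 734
  bRho := (0, 27, 100)
  bBeta := (0, 4, 4)
  bT := (105, 107, 250)
  bKap := (0, 24, 16)
  bEps := (0, 1, 1000)
  bSig := (0, 83, 250)
  bNu := (0, 817, 1000)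
  bTh := (0, 88, 800)
  bZ := (0, 2759209, 3906250)
  tX := tX_0
  tY1 := tY1_0
  tY2 := tY2_0
  tM1 := (.leaf [11, 78, 547] [6, 6, 6])
  tM2 := (.leaf [10, 71, 498] [6, 6, 6])
  tN1 := (.leaf [13, 92, 645] [6, 6, 6])
  tN2 := (.leaf [12, 85, 596] [6, 6, 6])
  tQ1 := tQ1_0
  tQ2 := (.leaf [563, 12387, 198193, 2180124] [21, 15, 10, 15])
  tW := (.leaf [56, 505] [8, 8])
  tK := (.leaf [142, 995] [6, 5])
  tS1 := (.leaf [101, 506] [4, 4])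
  tS2 := (.leaf [107, 536] [4, 4])
  tC := (.leaf [86, 345, 1381] [3, 3, 4])
  tXi := (.leaf [53, 213] [3, 0])
  tE := (.leaf [1, 2] [0, 0])
  tZ := (.leaf [375] [15])

/-- the further data -/
def X : Ext where
  rho0 := (27, 100)
  bR3 := (216, 800, 800)
  bRW := (0, 1, 1)
  tQ3 := tQ3_0

def btQ1_root : List (ℤ × ℤ × ℕ) := [C.bRho, C.bBeta, C.bT, C.bKap]

def btQ1_0l : List (ℤ × ℤ × ℕ) := btQ1_root.set 3 ((btQ1_root.getD 3 (0, 1, 1)).1, (12), (btQ1_root.getD 3 (0, 1, 1)).2.2)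

def btQ1_0r : List (ℤ × ℤ × ℕ) := btQ1_root.set 3 ((12), (btQ1_root.getD 3 (0, 1, 1)).2.1, (btQ1_root.getD 3 (0, 1, 1)).2.2)

def btQ3_root : List (ℤ × ℤ × ℕ) := [X.bR3, C.bBeta, C.bT, C.bTh]

def btQ3_0l : List (ℤ × ℤ × ℕ) := btQ3_root.set 1 ((btQ3_root.getD 1 (0, 1, 1)).1, (2), (btQ3_root.getD 1 (0, 1, 1)).2.2)

def btQ3_0r : List (ℤ × ℤ × ℕ) := btQ3_root.set 1 ((2), (btQ3_root.getD 1 (0, 1, 1)).2.1, (btQ3_root.getD 1 (0, 1, 1)).2.2)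

def btQ3_1l : List (ℤ × ℤ × ℕ) := btQ3_0l.set 0 ((btQ3_0l.getD 0 (0, 1, 1)).1, (508), (btQ3_0l.getD 0 (0, 1, 1)).2.2)

def btQ3_1r : List (ℤ × ℤ × ℕ) := btQ3_0l.set 0 ((508), (btQ3_0l.getD 0 (0, 1, 1)).2.1, (btQ3_0l.getD 0 (0, 1, 1)).2.2)

def btQ3_4l : List (ℤ × ℤ × ℕ) := btQ3_0r.set 0 ((btQ3_0r.getD 0 (0, 1, 1)).1, (508), (btQ3_0r.getD 0 (0, 1, 1)).2.2)

def btQ3_4r : List (ℤ × ℤ × ℕ) := btQ3_0r.set 0 ((508), (btQ3_0r.getD 0 (0, 1, 1)).2.1, (btQ3_0r.getD 0 (0, 1, 1)).2.2)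

def btQ3_5l : List (ℤ × ℤ × ℕ) := btQ3_4l.set 3 ((btQ3_4l.getD 3 (0, 1, 1)).1, (44), (btQ3_4l.getD 3 (0, 1, 1)).2.2)

def btQ3_5r : List (ℤ × ℤ × ℕ) := btQ3_4l.set 3 ((44), (btQ3_4l.getD 3 (0, 1, 1)).2.1, (btQ3_4l.getD 3 (0, 1, 1)).2.2)

def btQ3_6l : List (ℤ × ℤ × ℕ) := btQ3_5l.set 1 ((btQ3_5l.getD 1 (0, 1, 1)).1, (3), (btQ3_5l.getD 1 (0, 1, 1)).2.2)

def btQ3_6r : List (ℤ × ℤ × ℕ) := btQ3_5l.set 1 ((3), (btQ3_5l.getD 1 (0, 1, 1)).2.1, (btQ3_5l.getD 1 (0, 1, 1)).2.2)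

end Vale.Agent.Lib.P154.Neg.B4280
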